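import Vale.Agent.P281.H564.GMa
import Vale.Agent.P281.H368.GM.Dense
import Vale.Agent.P272.K.INT.Global
import Mathlib.Analysis.SpecialFunctions.SmoothTransition

/-! P281, theorem GM, block GM-H, part c: the moving part of the sections `S b` defines a map to
projective space on the whole of `X`. -/

open scoped Manifold ContDiff Topology ComplexOrder
open Set Filter Vale.Agent.P281.J Vale.Agent.P272.K

noncomputable section

namespace Vale.Agent.P281.H564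

open Vale.Agent.P281.H167.GM Vale.Agent.P272.K.INT Vale.Agent.P299.H223
open Vale.Agent.P281.H713.SA Vale.Agent.P281.H949.SA

section loc

variable {n M : ℕ}

/-- `|ℓ · V|² / |V|²` -/
def qq (ℓ V : Fin M → ℂ) : ℝ := ‖∑ b, ℓ b * V b‖ ^ 2 / nsq V

lemma qq_nonneg (ℓ V : Fin M → ℂ) : 0 ≤ qq ℓ V := div_nonneg (by positivity) (nsq_nonneg _)

lemma qq_smul (ℓ V : Fin M → ℂ) {c : ℂ} (hc : c ≠ 0) : qq ℓ (c • V) = qq ℓ V := by
  unfold qq
  rw [nsq_smul]
  have h1 : ∑ b, ℓ b * (c • V) b = c * ∑ b, ℓ b * V b := by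
    rw [Finset.mul_sum]
    exact Finset.sum_congr rfl fun b _ => by simp only [Pi.smul_apply, smul_eq_mul]; ring
  rw [h1, norm_mul, mul_pow]
  have : (‖c‖ ^ 2 : ℝ) ≠ 0 := pow_ne_zero 2 (norm_ne_zero_iff.2 hc)
  exact mul_div_mul_left _ _ this

lemma qq_pos {ℓ V : Fin M → ℂ} (h : ∑ b, ℓ b * V b ≠ 0) : 0 < qq ℓ V := by
  have hV : V ≠ 0 := by rintro rfl; simp at h
  exact div_pos (pow_pos (norm_pos_iff.2 h) 2) (nsq_pos hV)

lemma sum_holo {F : Cm n → Fin M → ℂ} {z : Cm n} (hF : ContDiffAt ℂ ω F z) (ℓ : Fin M → ℂ) :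
    ContDiffAt ℂ ω (fun y => ∑ b, ℓ b * F y b) z :=
  ContDiffAt.sum fun b _ => contDiffAt_const.mul (comp_cd hF b)

lemma qq_smooth {F : Cm n → Fin M → ℂ} {z : Cm n} (hF : ContDiffAt ℂ ω F z) (h0 : F z ≠ 0)
    (ℓ : Fin M → ℂ) : ContDiffAt ℝ ∞ (fun y => qq ℓ (F y)) z := by
  have h1 : ContDiffAt ℝ ∞ (fun y => ∑ b, ℓ b * F y b) z :=
    ((sum_holo hF ℓ).restrict_scalars ℝ).of_le (by simp)
  exact (h1.norm_sq ℝ).div (smooth_nsq hF) (nsq_pos h0).ne'

end loc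

variable {n : ℕ} {X : Type} [TopologicalSpace X] [ChartedSpace (Cm n) X]
  [IsManifold 𝓘(ℂ, Cm n) ω X]

lemma holAt_chart {h : X → ℂ} {e : Chart n X} {x : X} (hx : At e x) (hh : HolAt (Cm n) h x) :
    ContDiffAt ℂ ω (fun z => h (e.symm z)) (e x) := by
  rw [← contMDiffAt_iff_contDiffAt]
  refine ContMDiffAt.comp (e x) (g := h) ?_ 
    (Vale.Agent.P272.K.chart_symm_contMDiffAt hx.1 hx.mem_target)
  rw [hx.left_inv]
  exact hh

omit [IsManifold 𝓘(ℂ, Cm n) ω X] in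
lemma tendsto_symm {e : Chart n X} {x : X} (hx : At e x) : Tendsto e.symm (𝓝 (e x)) (𝓝 x) := by
  have := e.continuousAt_symm hx.mem_target
  rwa [ContinuousAt, hx.left_inv] at this

omit [IsManifold 𝓘(ℂ, Cm n) ω X] in
lemma frequently_chart {P : X → Prop} {e : Chart n X} {x : X} (hx : At e x)
    (h : ∃ᶠ y in 𝓝 x, P y) : ∃ᶠ z in 𝓝 (e x), P (e.symm z) := by
  intro hcon
  apply h
  filter_upwards [(e.continuousAt hx.2).eventually hcon, e.open_source.mem_nhds hx.2] with y hy hys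
  rwa [e.left_inv hys] at hy

omit [IsManifold 𝓘(ℂ, Cm n) ω X] in
lemma holAt_continuousAt {h : X → ℂ} {x : X} (hh : HolAt (Cm n) h x) : ContinuousAt h x :=
  ContMDiffAt.continuousAt hh

lemma holAt_eventually {h : X → ℂ} {x : X} (hh : HolAt (Cm n) h x) :
    ∀ᶠ y in 𝓝 x, HolAt (Cm n) h y :=
  (contMDiffAt_iff_contMDiffAt_nhds (by simp)).1 hh

section Sec

variable {m N : ℕ} {S : Fin N → X → ℂ}

/-- the sections do not vanish identically on any open set -/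
lemma frequently_ne [ConnectedSpace X] (hS : ∀ b, IsPluri (n := n) m (S b))
    (hne : ∃ b x, S b x ≠ 0) (x : X) : ∃ᶠ y in 𝓝 x, ∃ b, S b y ≠ 0 := by
  obtain ⟨b, x₀, hb⟩ := hne
  exact (Vale.Agent.P281.H368.GM.frequently_ne hS hb x).mono fun y hy => ⟨b, hy⟩

/-- a local representation of the sections -/
structure Rep (S : Fin N → X → ℂ) (b₀ : Fin N) (H : Fin N → X → ℂ) (x : X) : Prop where
  hol : ∀ b, HolAt (Cm n) (H b) x
  eq : ∀ᶠ z in 𝓝 x, ∀ b, S b z = H b z * S b₀ z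

lemma Rep.eventually {b₀ : Fin N} {H : Fin N → X → ℂ} {x : X} (h : Rep (n := n) S b₀ H x) :
    ∀ᶠ y in 𝓝 x, Rep (n := n) S b₀ H y := by
  have h1 : ∀ᶠ y in 𝓝 x, ∀ b, HolAt (Cm n) (H b) y :=
    eventually_all.2 fun b => holAt_eventually (h.hol b)
  filter_upwards [h1, h.eq.eventually_nhds] with y hy hy2
  exact ⟨hy, hy2⟩

omit [IsManifold 𝓘(ℂ, Cm n) ω X] in
lemma Rep.one {b₀ : Fin N} {H : Fin N → X → ℂ} {x : X} (h : Rep (n := n) S b₀ H x)
    (hf : ∃ᶠ y in 𝓝 x, ∃ b, S b y ≠ 0) : H b₀ x = 1 := by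
  by_contra hne
  apply hf
  filter_upwards [(holAt_continuousAt (h.hol b₀)).eventually_ne hne, h.eq] with y hy hy2
  rintro ⟨b, hb⟩
  have h1 : S b₀ y ≠ 0 := by
    intro h0
    exact hb (by rw [hy2 b, h0, mul_zero])
  have h2 := hy2 b₀
  exact hy (mul_right_cancel₀ h1 (by rw [one_mul]; exact h2.symm))

omit [IsManifold 𝓘(ℂ, Cm n) ω X] in
lemma Rep.ne {b₀ : Fin N} {H : Fin N → X → ℂ} {x : X} (h : Rep (n := n) S b₀ H x)
    (hf : ∃ᶠ y in 𝓝 x, ∃ b, S b y ≠ 0) : (fun b => H b x) ≠ 0 := by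
  intro h0
  have := congrFun h0 b₀
  rw [h.one hf, Pi.zero_apply] at this
  exact one_ne_zero this

omit [IsManifold 𝓘(ℂ, Cm n) ω X] in
lemma Rep.cross {b₀ b₁ : Fin N} {H K : Fin N → X → ℂ} {x : X} (h : Rep (n := n) S b₀ H x)
    (h' : Rep (n := n) S b₁ K x) (hf : ∃ᶠ y in 𝓝 x, ∃ b, S b y ≠ 0) (a b : Fin N) :
    H a x * K b x = H b x * K a x := by
  by_contra hne
  have hc : ContinuousAt (fun y => H a y * K b y - H b y * K a y) x :=
    ((holAt_continuousAt (h.hol a)).mul (holAt_continuousAt (h'.hol b))).sub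
      ((holAt_continuousAt (h.hol b)).mul (holAt_continuousAt (h'.hol a)))
  have h1 := hc.eventually_ne (sub_ne_zero.2 hne)
  apply hf
  filter_upwards [h1, h.eq, h'.eq] with y hy hy2 hy3
  rintro ⟨c, hcy⟩
  have e1 : S b₀ y ≠ 0 := fun h0 => hcy (by rw [hy2 c, h0, mul_zero])
  have e2 : S b₁ y ≠ 0 := fun h0 => hcy (by rw [hy3 c, h0, mul_zero])
  apply hy
  have h4 : (H a y * K b y - H b y * K a y) * (S b₀ y * S b₁ y) = 0 := by
    have r1 := hy2 a
    have r2 := hy2 b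
    have r3 := hy3 a
    have r4 := hy3 b
    calc (H a y * K b y - H b y * K a y) * (S b₀ y * S b₁ y)
        = (H a y * S b₀ y) * (K b y * S b₁ y) - (H b y * S b₀ y) * (K a y * S b₁ y) := by ring
      _ = 0 := by rw [← r1, ← r2, ← r3, ← r4]; ring
  exact (mul_eq_zero.1 h4).resolve_right (mul_ne_zero e1 e2)

omit [IsManifold 𝓘(ℂ, Cm n) ω X] in
/-- two representations are proportional -/
lemma Rep.prop {b₀ b₁ : Fin N} {H K : Fin N → X → ℂ} {x : X} (h : Rep (n := n) S b₀ H x)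
    (h' : Rep (n := n) S b₁ K x) (hf : ∃ᶠ y in 𝓝 x, ∃ b, S b y ≠ 0) :
    ∃ c : ℂ, c ≠ 0 ∧ (fun b => K b x) = c • fun b => H b x := by
  have h1 : (fun b => K b x) = K b₀ x • fun b => H b x := by
    funext b
    have := h.cross h' hf b₀ b
    rw [h.one hf, one_mul] at this
    rw [this, Pi.smul_apply, smul_eq_mul, mul_comm]
  refine ⟨K b₀ x, ?_, h1⟩
  intro h0
  rw [h0, zero_smul] at h1
  exact h'.ne hf h1

lemma exists_rep (hS : IsMoving n m S) (x : X) : ∃ (b₀ : Fin N) (H : Fin N → X → ℂ),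
    Rep (n := n) S b₀ H x := by
  obtain ⟨b₀, h⟩ := hS.princ x
  choose H hH using h
  exact ⟨b₀, H, fun b => (hH b).1, eventually_all.2 fun b => (hH b).2⟩

/-- homogeneous coordinates of the image of `x` by the map defined by the sections `S b` -/
def hc (hS : IsMoving n m S) (x : X) (b : Fin N) : ℂ := (exists_rep hS x).choose_spec.choose b x

lemma hc_rep (hS : IsMoving n m S) (x : X) : ∃ (b₀ : Fin N) (H : Fin N → X → ℂ),
    Rep (n := n) S b₀ H x ∧ hc hS x = fun b => H b x :=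
  ⟨_, _, (exists_rep hS x).choose_spec.choose_spec, rfl⟩

lemma hc_prop (hS : IsMoving n m S) (hf : ∀ x, ∃ᶠ y in 𝓝 x, ∃ b, S b y ≠ 0) {x : X} {b₀ : Fin N}
    {H : Fin N → X → ℂ} (h : Rep (n := n) S b₀ H x) :
    ∃ c : ℂ, c ≠ 0 ∧ hc hS x = c • fun b => H b x := by
  obtain ⟨b₁, K, hK, he⟩ := hc_rep hS x
  rw [he]
  exact h.prop hK (hf x)

lemma qq_hc (hS : IsMoving n m S) (hf : ∀ x, ∃ᶠ y in 𝓝 x, ∃ b, S b y ≠ 0) {x : X} {b₀ : Fin N}
    {H : Fin N → X → ℂ} (h : Rep (n := n) S b₀ H x) (ℓ : Fin N → ℂ) :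
    qq ℓ (hc hS x) = qq ℓ fun b => H b x := by
  obtain ⟨c, hc0, he⟩ := hc_prop hS hf h
  rw [he, qq_smul _ _ hc0]

lemma Rep.chart {b₀ : Fin N} {H : Fin N → X → ℂ} {x : X} (h : Rep (n := n) S b₀ H x)
    {e : Chart n X} (hx : At e x) : ContDiffAt ℂ ω (fun z b => H b (e.symm z)) (e x) :=
  contDiffAt_pi.2 fun b => holAt_chart hx (h.hol b)

lemma qq_hc_smooth (hS : IsMoving n m S) (hf : ∀ x, ∃ᶠ y in 𝓝 x, ∃ b, S b y ≠ 0)
    (ℓ : Fin N → ℂ) : SmoothFn (n := n) fun x => qq ℓ (hc hS x) := by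
  intro e x hx
  obtain ⟨b₀, H, h⟩ := exists_rep hS x
  have h1 : ContDiffAt ℝ ∞ (fun z => qq ℓ fun b => H b (e.symm z)) (e x) :=
    qq_smooth (h.chart hx) (by simpa only [hx.left_inv] using h.ne (hf x)) ℓ
  refine h1.congr_of_eventuallyEq ?_
  filter_upwards [(tendsto_symm hx).eventually h.eventually] with z hz
  exact qq_hc hS hf hz ℓ

end Sec

section Proj

variable {k : ℕ} {t : Fin k → X → ℂ}

lemma proj_chart {x : X} {b₀ : Fin k} (h : ∀ᶠ z in 𝓝 x, t b₀ z ≠ 0 ∧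
    ∀ b, HolAt (Cm n) (fun z => t b z / t b₀ z) z) {e : Chart n X} (hx : At e x) :
    ContDiffAt ℂ ω (fun z b => t b (e.symm z) / t b₀ (e.symm z)) (e x) :=
  contDiffAt_pi.2 fun b => holAt_chart hx (h.self_of_nhds.2 b)

omit [TopologicalSpace X] [ChartedSpace (Cm n) X] [IsManifold 𝓘(ℂ, Cm n) ω X] in
lemma proj_ne {x : X} {b₀ : Fin k} (h : t b₀ x ≠ 0) : (fun b => t b x / t b₀ x) ≠ 0 := by
  intro h0
  have := congrFun h0 b₀
  rw [div_self h, Pi.zero_apply] at this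
  exact one_ne_zero this

omit [TopologicalSpace X] [ChartedSpace (Cm n) X] [IsManifold 𝓘(ℂ, Cm n) ω X] in
lemma qq_proj {x : X} {b₀ : Fin k} (h : t b₀ x ≠ 0) (ℓ : Fin k → ℂ) :
    qq ℓ (fun b => t b x) = qq ℓ fun b => t b x / t b₀ x := by
  have h1 : (fun b => t b x) = t b₀ x • fun b => t b x / t b₀ x := by
    funext b
    rw [Pi.smul_apply, smul_eq_mul, mul_div_cancel₀ _ h]
  conv_lhs => rw [h1]
  exact qq_smul _ _ h

lemma qq_proj_smooth (ht : IsProjMap n t) (ℓ : Fin k → ℂ) :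
    SmoothFn (n := n) fun x => qq ℓ (fun b => t b x) := by
  intro e x hx
  obtain ⟨b₀, h⟩ := ht x
  have h1 : ContDiffAt ℝ ∞ (fun z => qq ℓ fun b => t b (e.symm z) / t b₀ (e.symm z)) (e x) :=
    qq_smooth (proj_chart h hx)
      (by simpa only [hx.left_inv] using proj_ne h.self_of_nhds.1) ℓ
  refine h1.congr_of_eventuallyEq ?_
  filter_upwards [(tendsto_symm hx).eventually h] with z hz
  exact qq_proj hz.1 ℓ

end Proj

end Vale.Agent.P281.H564
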