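import Vale.Agent.P281.H564.GMb
import Vale.Agent.P281.H564.GMc

/-! P281, theorem GM, block GM-H: growth of `K · (β + s θ) ^ (n-1)` if the fixed divisor is
contracted. -/

open scoped Manifold ContDiff Topology ComplexOrder
open Set Filter Vale.Agent.P281.J Vale.Agent.P272.K

noncomputable section

namespace Vale.Agent.P281.H564

open Vale.Agent.P281.H167.GM Vale.Agent.P272.K.INT Vale.Agent.P299.H223
open Vale.Agent.P281.H713.SA Vale.Agent.P281.H949.SA

section real

/-- a smooth function which is `log` on `(c, ∞)` -/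
def lam (c r : ℝ) : ℝ := Real.smoothTransition ((r - c / 2) / (c / 2)) * Real.log r

lemma lam_smooth {c : ℝ} (hc : 0 < c) : ContDiff ℝ ∞ (lam c) := by
  rw [contDiff_iff_contDiffAt]
  intro r
  rcases lt_or_ge r (c / 2) with h | h
  · have h1 : lam c =ᶠ[𝓝 r] fun _ => 0 := by
      filter_upwards [isOpen_Iio.mem_nhds h] with y hy
      have hy' : y < c / 2 := hy
      rw [lam, Real.smoothTransition.zero_of_nonpos
        (div_nonpos_of_nonpos_of_nonneg (by linarith) (by linarith)), zero_mul]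
    exact contDiffAt_const.congr_of_eventuallyEq h1
  · have hr : r ≠ 0 := by
      have := half_pos hc
      exact (lt_of_lt_of_le this h).ne'
    refine ContDiffAt.mul ?_ (Real.contDiffAt_log.2 hr)
    exact Real.smoothTransition.contDiff.contDiffAt.comp r
      ((contDiffAt_id.sub contDiffAt_const).div_const _)

lemma lam_eq {c r : ℝ} (hc : 0 < c) (h : c ≤ r) : lam c r = Real.log r := by
  rw [lam, Real.smoothTransition.one_of_one_le, one_mul]
  rw [le_div_iff₀ (half_pos hc)]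
  linarith

/-- a smooth function `≥ 0` which vanishes on `(-∞, c]` and is positive on `(c, ∞)` -/
def psi (c r : ℝ) : ℝ := expNegInvGlue (r - c)

lemma psi_smooth (c : ℝ) : ContDiff ℝ ∞ (psi c) :=
  expNegInvGlue.contDiff.comp (contDiff_id.sub contDiff_const)

end real

variable {n : ℕ} {X : Type} [TopologicalSpace X] [ChartedSpace (Cm n) X]
  [IsManifold 𝓘(ℂ, Cm n) ω X]

omit [IsManifold 𝓘(ℂ, Cm n) ω X] in
lemma SmoothFn.compR {u : X → ℝ} (hu : SmoothFn (n := n) u) {f : ℝ → ℝ} (hf : ContDiff ℝ ∞ f) :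
    SmoothFn (n := n) (fun x => f (u x)) := fun e x hx => hf.contDiffAt.comp (e x) (hu e x hx)

omit [IsManifold 𝓘(ℂ, Cm n) ω X] in
lemma SmoothFn.add' {u v : X → ℝ} (hu : SmoothFn (n := n) u) (hv : SmoothFn (n := n) v) :
    SmoothFn (n := n) (fun x => u x + v x) := fun e x hx => (hu e x hx).add (hv e x hx)

omit [IsManifold 𝓘(ℂ, Cm n) ω X] in
lemma SmoothFn.pow' {u : X → ℝ} (hu : SmoothFn (n := n) u) (k : ℕ) :
    SmoothFn (n := n) (fun x => u x ^ k) := fun e x hx => (hu e x hx).pow k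

omit [IsManifold 𝓘(ℂ, Cm n) ω X] in
lemma SmoothFn.mul' {u v : X → ℝ} (hu : SmoothFn (n := n) u) (hv : SmoothFn (n := n) v) :
    SmoothFn (n := n) (fun x => u x * v x) := fun e x hx => (hu e x hx).mul (hv e x hx)

omit [IsManifold 𝓘(ℂ, Cm n) ω X] in
lemma SmoothFn.log' {u : X → ℝ} (hu : SmoothFn (n := n) u) (h0 : ∀ x, u x ≠ 0) :
    SmoothFn (n := n) (fun x => Real.log (u x)) := fun e x hx => (hu e x hx).log (h0 _)

omit [IsManifold 𝓘(ℂ, Cm n) ω X] in
lemma smoothFn_const (c : ℝ) : SmoothFn (n := n) (X := X) (fun _ => c) :=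
  fun _ _ _ => contDiffAt_const

omit [IsManifold 𝓘(ℂ, Cm n) ω X] in
lemma SmoothFn.sum' {ι : Type*} (s : Finset ι) {u : ι → X → ℝ}
    (hu : ∀ i ∈ s, SmoothFn (n := n) (u i)) : SmoothFn (n := n) (fun x => ∑ i ∈ s, u i x) :=
  fun e x h => ContDiffAt.sum fun i hi => hu i hi e x h

section Main

variable {m N : ℕ} {S : Fin N → X → ℂ}

/-- `mθ` is the Fubini–Study form of the local representations, on the whole of `X` -/
lemma theta_eq {θ : Vale.Agent.P299.D.FormM n X} (hθ : IsClosedForm θ) {ρ : X → ℝ}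
    (hρS : ∀ x, ρ x = 0 ↔ ∀ b, S b x = 0) (hρ0 : ∀ x, 0 ≤ ρ x)
    (hS : ∀ b, IsPluri (n := n) m (S b))
    (hf : ∀ x, ∃ᶠ y in 𝓝 x, ∃ b, S b y ≠ 0)
    (hθS : ∀ e x, At e x → 0 < ρ x →
      θ e (e x) = (((m : ℝ)⁻¹ : ℝ) : ℂ) • fsM (coef m S e) (e x))
    {e : Chart n X} {x : X} (hx : At e x) {b₀ : Fin N} {H : Fin N → X → ℂ}
    (h : Rep (n := n) S b₀ H x) :
    θ e (e x) = (((m : ℝ)⁻¹ : ℝ) : ℂ) • fsM (fun z b => H b (e.symm z)) (e x) := by
  have hH : ContDiffAt ℂ ω (fun z b => H b (e.symm z)) (e x) := h.chart hx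
  have hH0 : (fun b => H b (e.symm (e x))) ≠ 0 := by simpa only [hx.left_inv] using h.ne (hf x)
  -- equality at the nearby points where the sections do not vanish
  have hev : ∃ᶠ z in 𝓝 (e x), θ e z =
      (((m : ℝ)⁻¹ : ℝ) : ℂ) • fsM (fun z b => H b (e.symm z)) z := by
    have h1 := frequently_chart hx (hf x)
    have h2 : ∀ᶠ z in 𝓝 (e x), z ∈ e.target ∧ Rep (n := n) S b₀ H (e.symm z) :=
      hx.nhds_target.and ((tendsto_symm hx).eventually h.eventually)
    refine (h1.and_eventually h2).mono ?_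
    rintro z ⟨⟨b, hb⟩, hzt, hz⟩
    have hzA : At e (e.symm z) := At.of_target hx.1 hzt
    have hρz : 0 < ρ (e.symm z) :=
      lt_of_le_of_ne (hρ0 _) fun h0 => hb ((hρS _).1 h0.symm b)
    have h3 := hθS e (e.symm z) hzA hρz
    rw [e.right_inv hzt] at h3
    rw [h3]
    congr 1
    have h4 : ContDiffAt ℂ ω (coef m S e) z := by
      have := coef_holo hS hzA
      rwa [e.right_inv hzt] at this
    have h5 : ContDiffAt ℂ ω (fun z b => H b (e.symm z)) z := by
      have := hz.chart hzA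
      rwa [e.right_inv hzt] at this
    have h6 : coef m S e z ≠ 0 := by
      intro h0
      have h7 := congrFun h0 b
      simp only [coef, Pi.zero_apply, div_eq_zero_iff] at h7
      rcases h7 with h7 | h7
      · exact hb h7
      · exact pow_ne_zero m (dj_ne_zero hzA) h7
    refine fsM_congr h4 h5 h6 (hz.ne (hf _)) ?_
    have h8 : Tendsto e.symm (𝓝 z) (𝓝 (e.symm z)) := e.continuousAt_symm hzt
    filter_upwards [h8.eventually hz.eq] with y hy
    refine ⟨coef m S e y b₀, ?_⟩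
    funext b
    simp only [Pi.smul_apply, smul_eq_mul, coef]
    rw [hy b]
    ring
  ext i j
  by_contra hne
  have hc1 : ContinuousAt (fun z => θ e z i j) (e x) := (hθ.smooth e x hx i j).continuousAt
  have hc2 : ContinuousAt (fun z => ((((m : ℝ)⁻¹ : ℝ) : ℂ) •
      fsM (fun z b => H b (e.symm z)) z) i j) (e x) := by
    have : ContinuousAt (fun z => fsM (fun z b => H b (e.symm z)) z i j) (e x) :=
      (smooth_cHess (smooth_log_nsq hH hH0) i j).continuousAt
    simp only [Matrix.smul_apply, smul_eq_mul]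
    exact continuousAt_const.mul this
  have hne' := (hc1.sub hc2).eventually_ne (sub_ne_zero.2 hne)
  apply hev
  filter_upwards [hne'] with z hz hz2
  apply hz
  rw [Pi.sub_apply, sub_eq_zero]
  exact congrFun (congrFun hz2 i) j

/-- the local identity: near a point where `Ψ = ∑ a_j u_j ^ k > 0` the form
`β + m k θ + i∂∂̄ log Ψ` is the Fubini–Study form of a map to `ℂ^(n-1)` -/
lemma key_local {k k₀ J : ℕ} (ℓ : Fin J → Fin k₀ → ℂ) (h : Fin J → Fin N → ℂ) {p : Cm n}
    {T : Cm n → Fin k₀ → ℂ} {H : Cm n → Fin N → ℂ} (hT : ContDiffAt ℂ ω T p)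
    (hT0 : T p ≠ 0) (hH : ContDiffAt ℂ ω H p) (hH0 : H p ≠ 0)
    {Ψ : Cm n → ℝ} (hΨ : ∀ᶠ z in 𝓝 p, Ψ z = ∑ j, qq (ℓ j) (T z) * qq (h j) (H z) ^ k)
    (hpos : 0 < Ψ p) :
    ∃ G : Cm n → Fin J → ℂ, ContDiffAt ℂ ω G p ∧ G p ≠ 0 ∧
      fsM T p + (k : ℂ) • fsM H p + cHess (fun z => Real.log (Ψ z)) p = fsM G p := by
  set G : Cm n → Fin J → ℂ := fun z j => (∑ b, ℓ j b * T z b) * (∑ b, h j b * H z b) ^ k with hG
  have hGc : ContDiffAt ℂ ω G p :=
    contDiffAt_pi.2 fun j => (sum_holo hT (ℓ j)).mul ((sum_holo hH (h j)).pow k)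
  have hTe : ∀ᶠ z in 𝓝 p, T z ≠ 0 := hT.continuousAt.eventually_ne hT0
  have hHe : ∀ᶠ z in 𝓝 p, H z ≠ 0 := hH.continuousAt.eventually_ne hH0
  have hform : ∀ z, T z ≠ 0 → H z ≠ 0 →
      ∑ j, qq (ℓ j) (T z) * qq (h j) (H z) ^ k = nsq (G z) / (nsq (T z) * nsq (H z) ^ k) := by
    intro z _ _
    rw [nsq, Finset.sum_div]
    refine Finset.sum_congr rfl fun j _ => ?_
    simp only [qq, hG, norm_mul, norm_pow, mul_pow, div_pow]
    rw [div_mul_div_comm, ← pow_mul, ← pow_mul, mul_comm 2 k]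
  have hG0 : G p ≠ 0 := by
    intro h0
    rw [hΨ.self_of_nhds, hform _ hT0 hH0, h0] at hpos
    simp [nsq] at hpos
  refine ⟨G, hGc, hG0, ?_⟩
  have hGe : ∀ᶠ z in 𝓝 p, G z ≠ 0 := hGc.continuousAt.eventually_ne hG0
  have hlog : (fun z => Real.log (Ψ z)) =ᶠ[𝓝 p] fun z =>
      (Real.log (nsq (G z)) - Real.log (nsq (T z))) - (k : ℝ) * Real.log (nsq (H z)) := by
    filter_upwards [hΨ, hTe, hHe, hGe] with z h1 h2 h3 h4
    rw [h1, hform z h2 h3, Real.log_div (nsq_pos h4).ne'
      (mul_ne_zero (nsq_pos h2).ne' (pow_ne_zero _ (nsq_pos h3).ne')),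
      Real.log_mul (nsq_pos h2).ne' (pow_ne_zero _ (nsq_pos h3).ne'), Real.log_pow]
    ring
  have t2 : (2 : WithTop ℕ∞) ≤ ∞ := by norm_cast
  have sG := (smooth_log_nsq hGc hG0).of_le t2
  have sT := (smooth_log_nsq hT hT0).of_le t2
  have sH := (smooth_log_nsq hH hH0).of_le t2
  rw [cHess_congr hlog, cHess_sub (sG.sub sT) (contDiffAt_const.mul sH), cHess_sub sG sT,
    cHess_const_mul _ sH]
  simp only [fsM]
  push_cast
  abel

end Main

/-- **GM-H** -/
theorem growthPart (coh : CohPart) : GrowthPart := by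
  intro n X _ _ _ _ _ _ m N k S hS t ht hcon φ hφ ρ hρ hρ0 hρS θ β hθ hβ hθp hβp hθφ hρH _ hβF ν hν
  have hf := frequently_ne hS.sec hS.ne
  have hm : (m : ℝ) ≠ 0 := by exact_mod_cast hS.pos.ne'
  -- `mθ` is the Fubini–Study form of the coefficients
  have hθS : ∀ e x, At e x → 0 < ρ x →
      θ e (e x) = (((m : ℝ)⁻¹ : ℝ) : ℂ) • fsM (coef m S e) (e x) := by
    intro e x hx hρx
    have hb : ∃ b, S b x ≠ 0 := by
      by_contra hcon
      push Not at hcon
      exact hρx.ne' ((hρS x).2 hcon)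
    obtain ⟨b, hb⟩ := hb
    have h0 : coef m S e (e x) ≠ 0 := by
      intro h0
      have h7 := congrFun h0 b
      simp only [coef, Pi.zero_apply, div_eq_zero_iff, hx.left_inv] at h7
      rcases h7 with h7 | h7
      · exact hb h7
      · exact pow_ne_zero m (dj_ne_zero hx) h7
    have hcf : ContDiffAt ℂ ω (coef m S e) (e x) := coef_holo hS.sec hx
    have hρe : ∀ᶠ z in 𝓝 (e x), 0 < ρ (e.symm z) := by
      have h1 : ContinuousAt (fun z => ρ (e.symm z)) (e x) := (hρ e x hx).continuousAt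
      exact h1.eventually (lt_mem_nhds (by simpa only [hx.left_inv] using hρx))
    have h1 : phiD φ m ρ 0 e =ᶠ[𝓝 (e x)] fun z => (m : ℝ)⁻¹ * Real.log (nsq (coef m S e z)) := by
      filter_upwards [hx.nhds_target, hρe] with z hz hz2
      have h2 := hρH e (e.symm z) (At.of_target hx.1 hz)
      rw [e.right_inv hz] at h2
      rw [← h2, Real.log_mul hz2.ne' (Real.exp_pos _).ne', Real.log_exp, phiD, add_zero]
      field_simp
      ring
    rw [hθφ e x hx hρx, cHess_congr h1, cHess_const_mul _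
      ((smooth_log_nsq hcf h0).of_le (by norm_cast))]
    rfl
  obtain ⟨ℓ, h, hcon⟩ := hcon
  set a : Fin (n - 1) → X → ℝ := fun j x => qq (ℓ j) fun b => t b x with ha
  set u : Fin (n - 1) → X → ℝ := fun j x => qq (h j) (hc hS x) with hu
  have has : ∀ j, SmoothFn (n := n) (a j) := fun j => qq_proj_smooth ht (ℓ j)
  have hus : ∀ j, SmoothFn (n := n) (u j) := fun j => qq_hc_smooth hS hf (h j)
  have ha0 : ∀ j x, 0 ≤ a j x := fun j x => qq_nonneg _ _
  have hu0 : ∀ j x, 0 ≤ u j x := fun j x => qq_nonneg _ _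
  have hsum0 : ∀ k' : ℕ, ∀ x, 0 ≤ ∑ j, a j x * u j x ^ k' := fun k' x =>
    Finset.sum_nonneg fun j _ => mul_nonneg (ha0 j x) (pow_nonneg (hu0 j x) _)
  -- positivity
  have hpos : ∀ x, 0 < ∑ j, a j x * u j x ^ 1 + ρ x := by
    intro x
    rcases (hρ0 x).lt_or_eq with h1 | h1
    · exact add_pos_of_nonneg_of_pos (hsum0 1 x) h1
    · have h2 := (hρS x).1 h1.symm
      obtain ⟨j, hj, b₀, H, hH, hjH⟩ := hcon x h2
      have hrep : Rep (n := n) S b₀ H x := ⟨fun b => (hH b).1, eventually_all.2 fun b => (hH b).2⟩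
      have h3 : 0 < a j x := qq_pos hj
      have h4 : 0 < u j x := by
        rw [hu]
        simp only
        rw [qq_hc hS hf hrep]
        exact qq_pos hjH
      refine add_pos_of_pos_of_nonneg ?_ (hρ0 x)
      refine Finset.sum_pos' (fun i _ => mul_nonneg (ha0 i x) (pow_nonneg (hu0 i x) _))
        ⟨j, Finset.mem_univ _, mul_pos h3 (pow_pos h4 _)⟩
  have hFs : SmoothFn (n := n) fun x => ∑ j, a j x * u j x ^ 1 + ρ x :=
    SmoothFn.add' (SmoothFn.sum' _ fun j _ => SmoothFn.mul' (has j) (SmoothFn.pow' (hus j) 1)) hρ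
  obtain ⟨x₁, -, hx₁⟩ := isCompact_univ.exists_isMinOn (univ_nonempty (α := X))
    (AMP.sm_continuous hFs).continuousOn
  set c : ℝ := (∑ j, a j x₁ * u j x₁ ^ 1 + ρ x₁) / 4 with hcdef
  have hc0 : 0 < c := div_pos (hpos x₁) (by norm_num)
  have hc4 : ∀ x, 4 * c ≤ ∑ j, a j x * u j x ^ 1 + ρ x := by
    intro x
    have h1 : ∑ j, a j x₁ * u j x₁ ^ 1 + ρ x₁ ≤ ∑ j, a j x * u j x ^ 1 + ρ x := hx₁ (mem_univ x)
    rw [hcdef]
    linarith
  -- equality of the mixed volumes
  have hcanC : IsClosedForm (fun (e : Chart n X) z => cHess (φ e) z) := isClosedForm_canonical hφ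
  have hmain : ∀ k' : ℕ, 1 ≤ k' → mixX (addF β ((m * k' : ℕ) : ℝ) θ) (fun e z => cHess (φ e) z) =
      mixX (addF β ((m * k' : ℕ) : ℝ) θ) θ := by
    intro k' hk'
    set A := addF β ((m * k' : ℕ) : ℝ) θ with hA
    have hAc : IsClosedForm A := isClosedForm_addF hβ hθ _
    set Ψ : X → ℝ := fun x => ∑ j, a j x * u j x ^ k' + psi (2 * c) (ρ x) with hΨ
    have hψ0 : ∀ r, 0 ≤ psi (2 * c) r := fun r => expNegInvGlue.nonneg _
    have hΨpos : ∀ x, 0 < Ψ x := by
      intro x
      rcases le_or_gt (ρ x) (2 * c) with h1 | h1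
      · have h2 : 0 < ∑ j, a j x * u j x ^ 1 := by
          have := hc4 x
          linarith
        obtain ⟨j, -, hj⟩ := Finset.exists_lt_of_sum_lt (s := Finset.univ)
          (f := fun _ : Fin (n - 1) => (0 : ℝ)) (g := fun j => a j x * u j x ^ 1)
          (by simpa using h2)
        have h3 : 0 < a j x := by
          refine lt_of_le_of_ne (ha0 j x) fun h0 => ?_
          rw [← h0, zero_mul] at hj
          exact lt_irrefl _ hj
        have h4 : 0 < u j x := by
          refine lt_of_le_of_ne (hu0 j x) fun h0 => ?_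
          rw [← h0, pow_one, mul_zero] at hj
          exact lt_irrefl _ hj
        refine add_pos_of_pos_of_nonneg ?_ (hψ0 _)
        exact Finset.sum_pos' (fun i _ => mul_nonneg (ha0 i x) (pow_nonneg (hu0 i x) _))
          ⟨j, Finset.mem_univ _, mul_pos h3 (pow_pos h4 _)⟩
      · refine add_pos_of_nonneg_of_pos (hsum0 k' x) ?_
        exact expNegInvGlue.pos_of_pos (by linarith)
    have hΨs : SmoothFn (n := n) Ψ :=
      SmoothFn.add' (SmoothFn.sum' _ fun j _ => SmoothFn.mul' (has j) (SmoothFn.pow' (hus j) k'))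
        (SmoothFn.compR hρ (psi_smooth (2 * c)))
    set w : X → ℝ := fun x => Real.log (Ψ x) with hw
    have hws : SmoothFn (n := n) w := SmoothFn.log' hΨs fun x => (hΨpos x).ne'
    set v : X → ℝ := fun x => (m : ℝ)⁻¹ * lam c (ρ x) with hv
    have hvs : SmoothFn (n := n) v :=
      SmoothFn.mul' (smoothFn_const _) (SmoothFn.compR hρ (lam_smooth hc0))
    have hzs : SmoothFn (n := n) (X := X) (fun _ => (0 : ℝ)) := smoothFn_const 0
    rw [← coh n X A _ hAc hcanC w v hws hvs, ← coh n X A θ hAc hθ w (fun _ => 0) hws hzs]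
    refine intX_congr fun e x hx => ?_
    rcases lt_or_ge c (ρ x) with h1 | h1
    · -- `θ = i∂∂̄ (φ + v)`
      have hρe : ∀ᶠ z in 𝓝 (e x), c < ρ (e.symm z) := by
        have h2 : ContinuousAt (fun z => ρ (e.symm z)) (e x) := (hρ e x hx).continuousAt
        exact h2.eventually (lt_mem_nhds (by simpa only [hx.left_inv] using h1))
      have h3 : addH (fun e z => cHess (φ e) z) v e (e x) = addH θ (fun _ => 0) e (e x) := by
        have h4 : addH θ (fun _ => 0) e (e x) = θ e (e x) := by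
          simp only [addH, cHess_const, add_zero]
        rw [h4, hθφ e x hx (hc0.trans h1)]
        show cHess (φ e) (e x) + cHess (fun z => v (e.symm z)) (e x) = _
        rw [← cHess_add ((hφ.smooth e x hx).of_le (by norm_cast)) ((hvs e x hx).of_le (by norm_cast))]
        refine cHess_congr ?_
        filter_upwards [hρe] with z hz
        simp only [phiD, hv, add_zero]
        rw [lam_eq hc0 hz.le]
      rw [h3]
    · -- the adjugate vanishes
      obtain ⟨b₀, H, hrep⟩ := exists_rep hS x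
      obtain ⟨b₁, hb₁⟩ := ht x
      have hT := proj_chart hb₁ hx
      have hH := hrep.chart hx
      have hT0 : (fun b => t b (e.symm (e x)) / t b₁ (e.symm (e x))) ≠ 0 := by
        simpa only [hx.left_inv] using proj_ne hb₁.self_of_nhds.1
      have hH0 : (fun b => H b (e.symm (e x))) ≠ 0 := by
        simpa only [hx.left_inv] using hrep.ne (hf x)
      have hΨe : ∀ᶠ z in 𝓝 (e x), Ψ (e.symm z) =
          ∑ j, qq (ℓ j) (fun b => t b (e.symm z) / t b₁ (e.symm z)) *
            qq (h j) (fun b => H b (e.symm z)) ^ k' := by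
        have hρe : ∀ᶠ z in 𝓝 (e x), ρ (e.symm z) < 2 * c := by
          have h2 : ContinuousAt (fun z => ρ (e.symm z)) (e x) := (hρ e x hx).continuousAt
          exact h2.eventually (gt_mem_nhds (by
            simp only [hx.left_inv]
            linarith))
        filter_upwards [hρe, (tendsto_symm hx).eventually hrep.eventually,
          (tendsto_symm hx).eventually hb₁] with z hz hz2 hz3
        have h5 : psi (2 * c) (ρ (e.symm z)) = 0 := expNegInvGlue.zero_of_nonpos (by linarith)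
        simp only [hΨ, h5, add_zero, ha, hu]
        refine Finset.sum_congr rfl fun j _ => ?_
        rw [qq_proj hz3.1, qq_hc hS hf hz2]
      obtain ⟨G, hG, hG0, hGeq⟩ := key_local (k := k') ℓ h hT hT0 hH hH0 hΨe (hΨpos _)
      have h6 : addH A w e (e x) = fsM G (e x) := by
        rw [← hGeq]
        show β e (e x) + (((m * k' : ℕ) : ℝ) : ℂ) • θ e (e x) + cHess (fun z => w (e.symm z)) (e x) = _
        congr 1
        rw [hβF e x hx b₁ hb₁.self_of_nhds.1, theta_eq hθ hρS hρ0 hS.sec hf hθS hx hrep, smul_smul]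
        congr 2
        push_cast
        have : (m : ℂ) ≠ 0 := by exact_mod_cast hS.pos.ne'
        field_simp
      have h7 : (addH A w e (e x)).adjugate = 0 := by
        rw [h6]
        exact adjugate_fsM hG hG0
      simp only [mixD, h7, Matrix.zero_mul]
  obtain ⟨C', hC'⟩ := mixX_growth hβ hθ hβp hθp hν
  refine ⟨C', frequently_atTop.2 fun s₀ => ?_⟩
  obtain ⟨k₁, hk₁⟩ := exists_nat_ge s₀
  refine ⟨((m * (k₁ + 1) : ℕ) : ℝ), ?_, ?_⟩
  · refine hk₁.trans ?_
    have h1 : k₁ ≤ m * (k₁ + 1) := by nlinarith [hS.pos]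
    exact_mod_cast h1
  · rw [hmain (k₁ + 1) (by omega)]
    refine hC' _ ?_
    have h1 : 1 ≤ m * (k₁ + 1) := Nat.mul_pos hS.pos (Nat.succ_pos _)
    exact_mod_cast h1

end Vale.Agent.P281.H564
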