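import Vale.Agent.P281.H564.GMa
import Vale.Agent.P272.K.INT.Global

/-! P281, theorem GM, block GM-H, part b: growth of `∫ (β + sθ) ^ (n-1) ∧ θ`. -/

open scoped Manifold ContDiff Topology ComplexOrder
open Set Filter Vale.Agent.P281.J Vale.Agent.P272.K

noncomputable section

namespace Vale.Agent.P281.H564

open Vale.Agent.P281.H167.GM Vale.Agent.P272.K.INT

variable {n : ℕ} {X : Type} [TopologicalSpace X] [T2Space X] [CompactSpace X]
  [ChartedSpace (Cm n) X] [IsManifold 𝓘(ℂ, Cm n) ω X]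

lemma isClosedForm_addF {β θ : Vale.Agent.P299.D.FormM n X} (hβ : IsClosedForm β)
    (hθ : IsClosedForm θ) (s : ℝ) : IsClosedForm (addF β s θ) :=
  hβ.add (hθ.smul (s : ℂ))

/-- the polynomial `s ↦ ∫ det (β + sθ)` -/
def volP (β θ : Vale.Agent.P299.D.FormM n X) : Polynomial ℝ :=
  ∑ j : Fin (n + 1), Polynomial.C (intX fun (e : Chart n X) z => (addF β (j : ℝ) θ e z).det.re) *
    Lagrange.basis (Finset.univ : Finset (Fin (n + 1))) (fun i => (i : ℝ)) j

lemma volP_eval {β θ : Vale.Agent.P299.D.FormM n X} (hβ : IsClosedForm β) (hθ : IsClosedForm θ)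
    (s : ℝ) : (volP β θ).eval s = intX fun (e : Chart n X) z => (addF β s θ e z).det.re := by
  have h1 : intX (fun (e : Chart n X) z => (addF β s θ e z).det.re) =
      intX (fun (e : Chart n X) z => ∑ j : Fin (n + 1),
        lag n j s * (addF β (j : ℝ) θ e z).det.re) :=
    intX_congr fun e x _ => det_eq _ _ s
  rw [h1, intX_sum Finset.univ (D := fun (j : Fin (n + 1)) e z =>
      lag n j s * (addF β (j : ℝ) θ e z).det.re)
    fun j _ => ((isClosedForm_addF hβ hθ (j : ℝ)).isDensity).const_mul _, volP,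
    Polynomial.eval_finset_sum]
  refine Finset.sum_congr rfl fun j _ => ?_
  rw [intX_const_mul, Polynomial.eval_mul, Polynomial.eval_C, mul_comm]
  rfl

lemma volP_deriv {β θ : Vale.Agent.P299.D.FormM n X} (hβ : IsClosedForm β) (hθ : IsClosedForm θ)
    (s : ℝ) : (volP β θ).derivative.eval s = mixX (addF β s θ) θ := by
  have h1 : mixX (addF β s θ) θ =
      intX (fun (e : Chart n X) z => ∑ j : Fin (n + 1),
        deriv (lag n j) s * (addF β (j : ℝ) θ e z).det.re) :=
    intX_congr fun e x _ => mixD_eq _ _ s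
  rw [h1, intX_sum Finset.univ (D := fun (j : Fin (n + 1)) e z =>
      deriv (lag n j) s * (addF β (j : ℝ) θ e z).det.re)
    fun j _ => ((isClosedForm_addF hβ hθ (j : ℝ)).isDensity).const_mul _, volP,
    Polynomial.derivative_sum, Polynomial.eval_finset_sum]
  refine Finset.sum_congr rfl fun j _ => ?_
  rw [intX_const_mul, Polynomial.derivative_C_mul, Polynomial.eval_mul, Polynomial.eval_C, mul_comm]
  congr 1
  exact (Polynomial.deriv (p := Lagrange.basis (Finset.univ : Finset (Fin (n + 1)))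
    (fun i => (i : ℝ)) j)).symm

/-- growth of `∫ (β + sθ) ^ (n-1) ∧ θ` -/
theorem mixX_growth {β θ : Vale.Agent.P299.D.FormM n X} (hβ : IsClosedForm β)
    (hθ : IsClosedForm θ) (hβp : ∀ e x, At e x → (β e (e x)).PosSemidef)
    (hθp : ∀ e x, At e x → (θ e (e x)).PosSemidef) {ν : ℕ}
    (hr : ∀ e x, At e x → (θ e (e x)).rank ≤ ν) :
    ∃ C' : ℝ, ∀ s : ℝ, 1 ≤ s → mixX (addF β s θ) θ ≤ C' * s ^ ν / s := by
  obtain ⟨C', hC'⟩ := deriv_le_of_le (p := volP β θ)
    (C := intX fun (e : Chart n X) z => (addF β (1 : ℝ) θ e z).det.re) (ν := ν)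
    (fun s hs => by
      rw [volP_eval hβ hθ]
      refine intX_nonneg fun e x hx => ?_
      have h1 : (addF β s θ e (e x)).PosSemidef :=
        (hβp e x hx).add ((hθp e x hx).smul (by exact_mod_cast (zero_le_one.trans hs)))
      exact (Complex.le_def.1 h1.det_nonneg).1)
    (fun s hs => by
      rw [volP_eval hβ hθ, mul_comm, ← intX_const_mul]
      refine intX_mono (isClosedForm_addF hβ hθ s).isDensity
        ((isClosedForm_addF hβ hθ 1).isDensity.const_mul _) fun e x hx => ?_
      exact det_add_smul_le (hβp e x hx) (hθp e x hx) (hr e x hx) hs)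
  exact ⟨C', fun s hs => by rw [← volP_deriv hβ hθ]; exact hC' s hs⟩

end Vale.Agent.P281.H564
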