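import Vale.Agent.P281.H949.SA.M
import Vale.Agent.P281.H167.GM.Iface
import Vale.Agent.P272.K.INT.Poly
import Vale.Agent.P299.H882.Mat

/-! P281, theorem GM, block GM-H, part a: linear algebra and polynomials. -/

open scoped Manifold ContDiff Topology ComplexOrder
open Set Filter Vale.Agent.P281.J Vale.Agent.P272.K

noncomputable section

namespace Vale.Agent.P281.H564

open Vale.Agent.P281.H167.GM Vale.Agent.P272.K.INT Vale.Agent.P299.H223

variable {n : ℕ}

/-- the adjugate vanishes if every coordinate hyperplane contains a kernel vector -/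
lemma adjugate_eq_zero_of_ker {M : Matrix (Fin n) (Fin n) ℂ}
    (h : ∀ i, ∃ v : Fin n → ℂ, v ≠ 0 ∧ v i = 0 ∧ M.mulVec v = 0) : M.adjugate = 0 := by
  ext i j
  rw [Matrix.adjugate_apply, Matrix.zero_apply]
  obtain ⟨v, hv, hvi, hMv⟩ := h i
  refine Matrix.exists_mulVec_eq_zero_iff.1 ⟨v, hv, ?_⟩
  ext r
  rw [Matrix.mulVec, dotProduct, Pi.zero_apply]
  by_cases hr : r = j
  · subst hr
    rw [Matrix.updateRow_self]
    rw [← hvi]
    simp [Pi.single_apply]
  · rw [Matrix.updateRow_ne hr]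
    exact congrFun hMv r

/-- a holomorphic map to `ℂ^(n-1)` without zeros: the adjugate of the Fubini–Study form vanishes -/
lemma adjugate_fsM {F : Cm n → Fin (n - 1) → ℂ} {z : Cm n} (hF : ContDiffAt ℂ ω F z)
    (h0 : F z ≠ 0) : (fsM F z).adjugate = 0 := by
  have hT : (fsM F z).transpose.adjugate = 0 := by
    refine adjugate_eq_zero_of_ker fun i => ?_
    set L : (Fin n → ℂ) × ℂ →ₗ[ℂ] (Fin (n - 1) → ℂ) × ℂ :=
      LinearMap.prod (((fderiv ℂ F z : (Fin n → ℂ) →ₗ[ℂ] (Fin (n - 1) → ℂ)).comp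
        (LinearMap.fst ℂ _ _)) - (LinearMap.toSpanSingleton ℂ _ (F z)).comp (LinearMap.snd ℂ _ _))
        ((LinearMap.proj i).comp (LinearMap.fst ℂ _ _)) with hL
    have hn : 1 ≤ n := by have := i.2; omega
    have hker : LinearMap.ker L ≠ ⊥ := by
      apply LinearMap.ker_ne_bot_of_finrank_lt
      rw [Module.finrank_prod, Module.finrank_prod, Module.finrank_fin_fun,
        Module.finrank_fin_fun, Module.finrank_self]
      omega
    obtain ⟨⟨v, c⟩, hvc, hne⟩ := (Submodule.ne_bot_iff _).1 hker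
    rw [LinearMap.mem_ker, hL] at hvc
    have h1 : fderiv ℂ F z v = c • F z := by
      have := congrArg Prod.fst hvc
      simp only [LinearMap.prod_apply, Prod.fst_zero] at this
      exact sub_eq_zero.1 this
    have h2 : v i = 0 := by
      have := congrArg Prod.snd hvc
      simpa using this
    have hv : v ≠ 0 := by
      rintro rfl
      rw [map_zero] at h1
      have hc : c = 0 := by
        rcases smul_eq_zero.1 h1.symm with h | h
        · exact h
        · exact absurd h h0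
      exact hne (by rw [hc]; rfl)
    refine ⟨v, hv, h2, ?_⟩
    have h3 := (Vale.Agent.P281.H949.SA.fsM_ker hF h0 v).2 ⟨c, h1⟩
    ext j
    rw [Pi.zero_apply, ← h3 j]
    simp only [Matrix.mulVec, dotProduct, Matrix.transpose_apply]
    exact Finset.sum_congr rfl fun k _ => mul_comm _ _
  rw [← Matrix.adjugate_transpose] at hT
  rw [← Matrix.transpose_transpose (fsM F z).adjugate, hT, Matrix.transpose_zero]

/-- `tr (adj M · B)` as a sum of determinants -/
lemma sum_updateRow (M B : Matrix (Fin n) (Fin n) ℂ) :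
    ∑ r, (M.updateRow r (B r)).det = (M.adjugate * B).trace := by
  rw [Matrix.trace_mul_comm, Matrix.trace]
  refine Finset.sum_congr rfl fun r _ => ?_
  rw [← Matrix.cramer_transpose_apply, Matrix.cramer_eq_adjugate_mulVec, ← Matrix.adjugate_transpose,
    Matrix.diag_apply, Matrix.mul_apply, Matrix.mulVec, dotProduct]
  exact Finset.sum_congr rfl fun k _ => by rw [Matrix.transpose_apply, mul_comm]

lemma hasDerivAt_mixD (A B : Matrix (Fin n) (Fin n) ℂ) (s : ℝ) :
    HasDerivAt (fun t : ℝ => (A + (t : ℂ) • B).det.re) (mixD (A + (s : ℂ) • B) B) s := by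
  have h := hasDerivAt_det_line A B s
  rwa [sum_updateRow] at h

/-- `tr (adj (A + sB) · B)` by Lagrange interpolation -/
lemma mixD_eq (A B : Matrix (Fin n) (Fin n) ℂ) (s : ℝ) :
    mixD (A + (s : ℂ) • B) B =
      ∑ j : Fin (n + 1), deriv (lag n j) s * (A + ((j : ℝ) : ℂ) • B).det.re := by
  rw [← (hasDerivAt_mixD A B s).deriv]
  exact (isPolyN_det A B).deriv s

lemma det_eq (A B : Matrix (Fin n) (Fin n) ℂ) (s : ℝ) :
    (A + (s : ℂ) • B).det.re =
      ∑ j : Fin (n + 1), lag n j s * (A + ((j : ℝ) : ℂ) • B).det.re :=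
  (isPolyN_det A B).eq_sum s

lemma det_add_smul_le {w Θ : Matrix (Fin n) (Fin n) ℂ} (hw : w.PosSemidef) (hΘ : Θ.PosSemidef)
    {ν : ℕ} (hr : Θ.rank ≤ ν) {s : ℝ} (hs : 1 ≤ s) :
    (w + (s : ℂ) • Θ).det.re ≤ s ^ ν * (w + ((1 : ℝ) : ℂ) • Θ).det.re := by
  have hc : ∀ t : ℂ, Continuous fun ε : ℝ => (t • Θ + (w + (ε : ℂ) • 1)).det.re := fun t =>
    Complex.continuous_re.comp (Continuous.matrix_det
      (continuous_const.add (continuous_const.add (Complex.continuous_ofReal.smul continuous_const))))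
  have h1 : Tendsto (fun ε : ℝ => ((s : ℂ) • Θ + (w + (ε : ℂ) • 1)).det.re) (𝓝[>] 0)
      (𝓝 (w + (s : ℂ) • Θ).det.re) := by
    have := ((hc s).tendsto 0).mono_left (nhdsWithin_le_nhds (s := Ioi 0))
    simpa [add_comm] using this
  have h2 : Tendsto (fun ε : ℝ => s ^ ν * ((1 : ℂ) • Θ + (w + (ε : ℂ) • 1)).det.re) (𝓝[>] 0)
      (𝓝 (s ^ ν * (w + ((1 : ℝ) : ℂ) • Θ).det.re)) := by
    have := (((hc 1).tendsto 0).mono_left (nhdsWithin_le_nhds (s := Ioi 0))).const_mul (s ^ ν)
    simpa [add_comm] using this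
  refine le_of_tendsto_of_tendsto h1 h2 ?_
  filter_upwards [self_mem_nhdsWithin] with ε hε
  have hε' : (0 : ℝ) < ε := hε
  have hpd : (w + (ε : ℂ) • (1 : Matrix (Fin n) (Fin n) ℂ)).PosDef :=
    Matrix.PosDef.posSemidef_add hw (Matrix.PosDef.one.smul (by exact_mod_cast hε'))
  exact Vale.Agent.P299.H882.det_pencil_le hpd hΘ hr hs

/-- a polynomial with `0 ≤ p ≤ C s ^ ν` for `s ≥ 1` has `p' ≤ C' s ^ ν / s` -/
lemma deriv_le_of_le {p : Polynomial ℝ} {C : ℝ} {ν : ℕ} (h0 : ∀ s : ℝ, 1 ≤ s → 0 ≤ p.eval s)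
    (h1 : ∀ s : ℝ, 1 ≤ s → p.eval s ≤ C * s ^ ν) :
    ∃ C' : ℝ, ∀ s : ℝ, 1 ≤ s → p.derivative.eval s ≤ C' * s ^ ν / s := by
  have hdeg : p.natDegree ≤ ν := by
    by_contra hcon
    push Not at hcon
    have hp0 : p ≠ 0 := by
      intro h
      rw [h, Polynomial.natDegree_zero] at hcon
      exact Nat.not_lt_zero _ hcon
    have hd : ((Polynomial.X : Polynomial ℝ) ^ ν).degree < p.degree := by
      rw [Polynomial.degree_X_pow, Polynomial.degree_eq_natDegree hp0]
      exact_mod_cast hcon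
    have h2 := Polynomial.abs_div_tendsto_atTop_atTop_of_degree_gt p (Polynomial.X ^ ν) hd
      (by simp)
    obtain ⟨s, hs1, hs2⟩ := ((h2.eventually_gt_atTop (|C| + 1)).and (eventually_ge_atTop 1)).exists
    rw [Polynomial.eval_pow, Polynomial.eval_X] at hs1
    have h3 : 0 < s ^ ν := pow_pos (lt_of_lt_of_le one_pos hs2) ν
    rw [abs_of_nonneg (div_nonneg (h0 s hs2) h3.le), lt_div_iff₀ h3] at hs1
    have := h1 s hs2
    have := le_abs_self C
    nlinarith
  refine ⟨∑ k ∈ Finset.range (ν + 1), |p.coeff k| * k, fun s hs => ?_⟩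
  have hs0 : 0 < s := lt_of_lt_of_le one_pos hs
  rw [le_div_iff₀ hs0]
  have h4 : p = ∑ k ∈ Finset.range (ν + 1), Polynomial.C (p.coeff k) * Polynomial.X ^ k := by
    conv_lhs => rw [p.as_sum_range_C_mul_X_pow' (Nat.lt_succ_of_le hdeg)]
  have h5 : p.derivative.eval s = ∑ k ∈ Finset.range (ν + 1), p.coeff k * (k * s ^ (k - 1)) := by
    conv_lhs => rw [h4]
    rw [Polynomial.derivative_sum, Polynomial.eval_finsetSum]
    refine Finset.sum_congr rfl fun k _ => ?_
    rw [Polynomial.derivative_C_mul, Polynomial.derivative_X_pow, Polynomial.eval_mul,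
      Polynomial.eval_C, Polynomial.eval_mul, Polynomial.eval_C, Polynomial.eval_pow,
      Polynomial.eval_X]
  rw [h5, Finset.sum_mul, Finset.sum_mul]
  refine Finset.sum_le_sum fun k hk => ?_
  have hk' : k ≤ ν := Nat.lt_succ_iff.1 (Finset.mem_range.1 hk)
  rcases Nat.eq_zero_or_pos k with rfl | hkp
  · simp
  · have h6 : s ^ (k - 1) * s = s ^ k := by
      rw [← pow_succ]; congr 1; omega
    have h7 : s ^ k ≤ s ^ ν := pow_le_pow_right₀ hs hk'
    have h8 : p.coeff k * (k * s ^ (k - 1)) * s = p.coeff k * k * s ^ k := by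
      rw [← h6]; ring
    rw [h8]
    have h9 : p.coeff k * k ≤ |p.coeff k| * k :=
      mul_le_mul_of_nonneg_right (le_abs_self _) (Nat.cast_nonneg k)
    calc p.coeff k * k * s ^ k ≤ |p.coeff k| * k * s ^ k :=
          mul_le_mul_of_nonneg_right h9 (pow_nonneg hs0.le k)
      _ ≤ |p.coeff k| * k * s ^ ν := mul_le_mul_of_nonneg_left h7 (by positivity)

end Vale.Agent.P281.H564
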